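import Vale.Agent.P106.K.Defs
import Vale.Agent.P106.W.Split

/-! # P106 / K1 : constants of the conformal boxes (helper471)

`const` : for every `A` there are `M`, `C` such that every random box of class `A` (`Bok A`, `Bin A`, whole planks) can be replaced
by one of `M` boxes of the strict class `ok (1/8)`, `In`, which contains the ray, of volume at most `C` times larger. -/

set_option autoImplicit false

namespace Vale.Agent.P106.K

open Vale.Agent.P106.W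
open Vale.Agent.P122.C2 (fn)

theorem bin_iff {A : ℝ} (B : Cbx) (H : ℝ) (l : Ry) : Bin A B H l ↔
    (∀ k, |l.y k - B.p k| ≤ A * B.u2) ∧ (∀ k, |l.s k - B.v k| ≤ A * B.u2) ∧
      |B.zz l.y l.s l.z| ≤ A * max (B.u2 ^ 2) H ∧ |B.g0 l.y l.s l.z| ≤ A * B.u1 ∧ |B.g1 l.y l.s l.z| ≤ A * B.u1 := Iff.rfl

theorem Bin.mono {A A' : ℝ} {B : Cbx} {H : ℝ} {l : Ry} (h1 : 0 ≤ B.u1) (h2 : 0 ≤ B.u2) (h : A ≤ A') (hB : Bin A B H l) :
    Bin A' B H l := by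
  obtain ⟨b1, b2, b3, b4, b5⟩ := hB
  have hm : 0 ≤ max (B.u2 ^ 2) H := le_max_of_le_left (by positivity)
  exact ⟨fun k => (b1 k).trans (mul_le_mul_of_nonneg_right h h2), fun k => (b2 k).trans (mul_le_mul_of_nonneg_right h h2),
    b3.trans (mul_le_mul_of_nonneg_right h hm), b4.trans (mul_le_mul_of_nonneg_right h h1),
    b5.trans (mul_le_mul_of_nonneg_right h h1)⟩

theorem Bok.mono {A A' : ℝ} {B : Cbx} {r : ℝ} (hA : 0 < A) (h : A ≤ A') (hB : Bok A B r) : Bok A' B r := by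
  obtain ⟨b0, b1, b2, b3, b4, b5⟩ := hB
  have h2 : 0 ≤ B.u2 := by
    by_contra hcon
    push Not at hcon
    nlinarith
  exact ⟨b0, b1.trans (mul_le_mul_of_nonneg_right h b0.le), b2.trans (mul_le_mul_of_nonneg_right h h2), b3.trans h,
    b4.trans h, b5.trans h⟩

/-- angle and length of the new normal -/
theorem nn_angle {B : Cbx} {p' v' : Fin 2 → ℝ} {X : ℝ} (hX : B.nn p' v' 0 ^ 2 + B.nn p' v' 1 ^ 2 = X)
    (h1 : (2 / 5 : ℝ) ^ 2 ≤ X) (h2 : X ≤ (8 / 5 : ℝ) ^ 2) :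
    ∃ (L θ' : ℝ), 2 / 5 ≤ L ∧ L ≤ 8 / 5 ∧ B.nn p' v' 0 = -(L * Real.sin θ') ∧ B.nn p' v' 1 = L * Real.cos θ' := by
  have hX0 : 0 < X := lt_of_lt_of_le (by norm_num) h1
  have hL0 : 0 < Real.sqrt X := Real.sqrt_pos.2 hX0
  have hLs : Real.sqrt X ^ 2 = X := Real.sq_sqrt hX0.le
  obtain ⟨θ', hc', hs'⟩ := exists_angle (x := B.nn p' v' 1 / Real.sqrt X) (y := -(B.nn p' v' 0) / Real.sqrt X) (by
    rw [div_pow, div_pow, hLs, ← add_div, div_eq_one_iff_eq hX0.ne', ← hX]; ring)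
  refine ⟨Real.sqrt X, θ', Real.le_sqrt_of_sq_le h1, Real.sqrt_le_iff.2 ⟨by norm_num, h2⟩, ?_, ?_⟩
  · rw [hs']; field_simp
  · rw [hc']; field_simp

/-- the cell of a ray in the grid of the box `B` of class `A` -/
noncomputable def keyA (A : ℝ) (D : ℕ) (B : Cbx) (H : ℝ) (l : Ry) : (Fin 2 → ℤ) × (Fin 2 → ℤ) × ℤ :=
  (fun k => ⌊(D : ℝ) * (l.y k - B.p k) / (A * B.u2)⌋, fun k => ⌊(D : ℝ) * (l.s k - B.v k) / (A * B.u2)⌋,
    ⌊(D : ℝ) * B.zz l.y l.s l.z / (A * max (B.u2 ^ 2) H)⌋)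

/-- the values of `keyA` on the box -/
noncomputable def keysA (D : ℕ) : Finset ((Fin 2 → ℤ) × (Fin 2 → ℤ) × ℤ) :=
  (Fintype.piFinset fun _ => Finset.Icc (-(D : ℤ)) D) ×ˢ (Fintype.piFinset fun _ => Finset.Icc (-(D : ℤ)) D) ×ˢ
      Finset.Icc (-(D : ℤ)) D

theorem keyA_mem {A : ℝ} (hA : 0 < A) {B : Cbx} {D : ℕ} {H : ℝ} {l : Ry} (h2 : 0 < B.u2) (hin : Bin A B H l) :
    keyA A D B H l ∈ keysA D := by
  obtain ⟨hy, hq, hz, -, -⟩ := (bin_iff B H l).1 hin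
  have hM : 0 < max (B.u2 ^ 2) H := lt_max_of_lt_left (by positivity)
  unfold keysA keyA
  simp only [Finset.mem_product, Fintype.mem_piFinset]
  exact ⟨fun k => floor_mem (by positivity) (hy k), fun k => floor_mem (by positivity) (hq k), floor_mem (by positivity) hz⟩

theorem u2_pos {A : ℝ} (hA : 0 < A) {B : Cbx} {r : ℝ} (hB : Bok A B r) : 0 < B.u2 := by
  obtain ⟨b0, b1, b2, -⟩ := hB
  by_contra hcon
  push Not at hcon
  nlinarith

/-- distances inside a cell -/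
theorem key_dist {A : ℝ} (hA : 1 ≤ A) {B : Cbx} {H : ℝ} (hH : 0 < H) (hu2 : 0 < B.u2) {D : ℕ} (hD : 1200 * A ^ 4 ≤ D)
    {l' l : Ry} (hin : Bin A B H l') (hk : keyA A D B H l = keyA A D B H l') :
      (∀ k, |l.y k - l'.y k| ≤ B.u2 / (20 * A)) ∧ (∀ k, |l.s k - l'.s k| ≤ B.u2 / (20 * A)) ∧
      |l.z + ∑ k, l.y k * (l.s k - l'.s k) - l'.z| ≤ max ((B.u2 / (20 * A)) ^ 2) H := by
  have hA0 : 0 < A := by linarith
  have hM : 0 < max (B.u2 ^ 2) H := lt_max_of_lt_left (by positivity)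
  have hA4 : (1 : ℝ) ≤ A ^ 4 := one_le_pow₀ hA
  have hA2' : (1 : ℝ) ≤ A ^ 2 := one_le_pow₀ hA
  have h24 : A ^ 2 ≤ A ^ 4 := pow_le_pow_right₀ hA (by norm_num)
  have hD0 : (0 : ℝ) < D := by linarith
  obtain ⟨py, ps, pz, pg0, pg1⟩ := (bin_iff B H l').1 hin
  unfold keyA at hk
  simp only [Prod.mk.injEq] at hk
  obtain ⟨k1, k2, k3⟩ := hk
  have c1 : ∀ k, |l.y k - l'.y k| ≤ A * B.u2 / D := fun k => by
    have := floor_close (by positivity) hD0 (congrFun k1 k)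
    rwa [sub_sub_sub_cancel_right] at this
  have c2 : ∀ k, |l.s k - l'.s k| ≤ A * B.u2 / D := fun k => by
    have := floor_close (by positivity) hD0 (congrFun k2 k)
    rwa [sub_sub_sub_cancel_right] at this
  have c3 := floor_close (by positivity) hD0 k3
  have hAD : A * B.u2 / D ≤ B.u2 / (20 * A) := by
    rw [div_le_div_iff₀ hD0 (by positivity)]
    have h5 : 20 * A ^ 2 ≤ (D : ℝ) := by linarith
    calc A * B.u2 * (20 * A) = B.u2 * (20 * A ^ 2) := by ring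
      _ ≤ B.u2 * D := mul_le_mul_of_nonneg_left h5 hu2.le
  refine ⟨fun k => (c1 k).trans hAD, fun k => (c2 k).trans hAD, ?_⟩
  have a0 : ∀ k, |(l.y k - l'.y k) * (l'.s k - B.v k)| ≤ A ^ 2 * max (B.u2 ^ 2) H / D := fun k => by
    rw [abs_mul]
    calc |l.y k - l'.y k| * |l'.s k - B.v k| ≤ A * B.u2 / D * (A * B.u2) :=
          mul_le_mul (c1 k) (ps k) (abs_nonneg _) (by positivity)
      _ = A ^ 2 * B.u2 ^ 2 / D := by ring
      _ ≤ A ^ 2 * max (B.u2 ^ 2) H / D := by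
          apply div_le_div_of_nonneg_right _ hD0.le
          exact mul_le_mul_of_nonneg_left (le_max_left _ _) (by positivity)
  have c4 : |∑ k, (l.y k - l'.y k) * (l'.s k - B.v k)| ≤ 2 * A ^ 2 * max (B.u2 ^ 2) H / D := by
    rw [Fin.sum_univ_two]
    calc |(l.y 0 - l'.y 0) * (l'.s 0 - B.v 0) + (l.y 1 - l'.y 1) * (l'.s 1 - B.v 1)|
        ≤ A ^ 2 * max (B.u2 ^ 2) H / D + A ^ 2 * max (B.u2 ^ 2) H / D := (abs_add_le _ _).trans (add_le_add (a0 0) (a0 1))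
      _ = 2 * A ^ 2 * max (B.u2 ^ 2) H / D := by ring
  rw [B.zz_rec l'.y l'.s l.y l.s l'.z l.z]
  have hAA : A ≤ A ^ 2 := by
    calc A = A * 1 := (mul_one A).symm
      _ ≤ A * A := mul_le_mul_of_nonneg_left hA hA0.le
      _ = A ^ 2 := (pow_two A).symm
  have h6 : 1200 * A ^ 4 = 3 * A ^ 2 * 400 * A ^ 2 := by ring
  have h7 : 3 * A ^ 2 ≤ (D : ℝ) := by linarith
  calc |B.zz l.y l.s l.z - B.zz l'.y l'.s l'.z - ∑ k, (l.y k - l'.y k) * (l'.s k - B.v k)|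
      ≤ |B.zz l.y l.s l.z - B.zz l'.y l'.s l'.z| + |∑ k, (l.y k - l'.y k) * (l'.s k - B.v k)| := abs_sub _ _
    _ ≤ A * max (B.u2 ^ 2) H / D + 2 * A ^ 2 * max (B.u2 ^ 2) H / D := add_le_add c3 c4
    _ ≤ A ^ 2 * max (B.u2 ^ 2) H / D + 2 * A ^ 2 * max (B.u2 ^ 2) H / D := by gcongr
    _ = 3 * A ^ 2 * max (B.u2 ^ 2) H / D := by ring
    _ ≤ max ((B.u2 / (20 * A)) ^ 2) H := by
        rw [div_le_iff₀ hD0]
        rcases le_total (B.u2 ^ 2) H with h8 | h8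
        · rw [max_eq_right h8]
          calc 3 * A ^ 2 * H ≤ D * H := mul_le_mul_of_nonneg_right h7 hH.le
            _ = H * D := by ring
            _ ≤ max ((B.u2 / (20 * A)) ^ 2) H * D := mul_le_mul_of_nonneg_right (le_max_right _ _) hD0.le
        · rw [max_eq_left h8]
          have e2 : 3 * A ^ 2 * B.u2 ^ 2 = (3 * A ^ 2 * 400 * A ^ 2) * (B.u2 / (20 * A)) ^ 2 := by
            field_simp; ring
          rw [e2]
          calc (3 * A ^ 2 * 400 * A ^ 2) * (B.u2 / (20 * A)) ^ 2 ≤ D * (B.u2 / (20 * A)) ^ 2 :=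
                mul_le_mul_of_nonneg_right (by linarith) (by positivity)
            _ = (B.u2 / (20 * A)) ^ 2 * D := by ring
            _ ≤ max ((B.u2 / (20 * A)) ^ 2) H * D := mul_le_mul_of_nonneg_right (le_max_left _ _) hD0.le

theorem small_aux {A a u1 u2 g : ℝ} (hA : 1 ≤ A) (hg : |g| ≤ A * u1) (ha : |a| * u2 ≤ A)
    (h : 100 * A ^ 2 * u1 ≤ u2) : |a * g| ≤ 1 / 100 := by
  have hA0 : 0 < A := by linarith
  rw [abs_mul]
  calc |a| * |g| ≤ |a| * (A * u1) := mul_le_mul_of_nonneg_left hg (abs_nonneg _)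
    _ ≤ |a| * (u2 / (100 * A)) := by
        apply mul_le_mul_of_nonneg_left _ (abs_nonneg _)
        rw [le_div_iff₀ (by positivity)]
        linarith
    _ = (|a| * u2) / (100 * A) := by ring
    _ ≤ A / (100 * A) := div_le_div_of_nonneg_right ha (by positivity)
    _ = 1 / 100 := by field_simp

theorem ok_aux1 {A L a u2 : ℝ} (hA : 1 ≤ A) (hL1 : 2 / 5 ≤ L) (ha : |a| * u2 ≤ A) :
    |a / L| * (u2 / (20 * A)) ≤ 1 / 8 := by
  have hL : 0 < L := by linarith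
  have hA0 : 0 < A := by linarith
  rw [abs_div, abs_of_pos hL]
  calc |a| / L * (u2 / (20 * A)) = (|a| * u2 / (20 * A)) / L := by ring
    _ ≤ (A / (20 * A)) / L := by gcongr
    _ = 1 / 20 / L := by field_simp
    _ ≤ 1 / 8 := by
        rw [div_le_iff₀ hL]
        linarith

theorem ok_aux2 {A L a H u1 : ℝ} (hL1 : 2 / 5 ≤ L) (ha : |a| * H ≤ A * u1) (h0 : 0 ≤ A * u1) :
    |a / L| * H ≤ 5 * A * u1 := by
  have hL : 0 < L := by linarith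
  rw [abs_div, abs_of_pos hL]
  have e : |a| / L * H = (|a| * H) / L := by ring
  rw [e, div_le_iff₀ hL]
  nlinarith

theorem g_aux {A L g g' u1 : ℝ} (hL1 : 2 / 5 ≤ L) (h : |g| ≤ A * u1) (h' : |g'| ≤ A * u1) (h0 : 0 ≤ A * u1) :
    |(g - g') / L| ≤ 5 * A * u1 := by
  have hL : 0 < L := by linarith
  rw [abs_div, abs_of_pos hL, div_le_iff₀ hL]
  have := abs_sub g g'
  nlinarith

/-- thin slab -/
theorem cut_thin {A : ℝ} (hA : 1 ≤ A) {B : Cbx} {r H : ℝ} (hr : 0 < r) (hH : 0 < H) (hB : Bok A B r)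
    (hκ : |B.κ| * H ≤ A * B.u1) (hα : |B.α| * H ≤ A * B.u1) {l' : Ry} (hin : Bin A B H l')
    (hcase : 5 * A * B.u1 ≤ B.u2 / (20 * A)) :
    ∃ B' : Cbx, B'.ok (1 / 8) r H ∧ B'.vol r H ≤ A ^ 7 * B.vol r H ∧ ∀ l : Ry, Bin A B H l →
      (∀ k, |l.y k - l'.y k| ≤ B.u2 / (20 * A)) → (∀ k, |l.s k - l'.s k| ≤ B.u2 / (20 * A)) →
      |l.z + ∑ k, l.y k * (l.s k - l'.s k) - l'.z| ≤ max ((B.u2 / (20 * A)) ^ 2) H → B'.In H l.y l.s l.z := by
  have hu2 := u2_pos (by linarith) hB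
  obtain ⟨hu1, hr', h12, hu2A, hα2, hκ2⟩ := hB
  have hA0 : 0 < A := by linarith
  obtain ⟨py, ps, pz, pg0, pg1⟩ := (bin_iff B H l').1 hin
  have hthin : 100 * A ^ 2 * B.u1 ≤ B.u2 := by
    rw [le_div_iff₀ (by positivity)] at hcase
    linarith
  have hκg : |B.κ * B.g1 l'.y l'.s l'.z| ≤ 1 / 100 := small_aux hA pg1 hκ2 hthin
  have hαg : |B.α * B.g0 l'.y l'.s l'.z| ≤ 1 / 100 := small_aux hA pg0 hα2 hthin
  have hX := B.nn_sq l'.y l'.s l'.z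
  rw [abs_le] at hκg hαg
  obtain ⟨L, θ', hL1, hL2, n0, n1⟩ := nn_angle (B := B) (p' := l'.y) (v' := l'.s) hX
    (by linarith [hκg.1, hκg.2, hαg.1, hαg.2]) (by linarith [hκg.1, hκg.2, hαg.1, hαg.2])
  have hL : 0 < L := by linarith
  have hAu : 0 ≤ A * B.u1 := by positivity
  have h20 : B.u2 / (20 * A) ≤ B.u2 := div_le_self hu2.le (by linarith)
  refine ⟨⟨θ', 5 * A * B.u1, B.u2 / (20 * A), B.κ / L, B.α / L, l'.y, l'.s, l'.z⟩, ⟨?_, hcase, ?_, ?_, ?_, ?_, ?_⟩, ?_, ?_⟩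
  · show r ≤ 5 * A * B.u1
    linarith
  · show B.u2 / (20 * A) ≤ 1
    rw [div_le_one (by positivity)]
    linarith
  · exact ok_aux1 hA hL1 hα2
  · exact ok_aux1 hA hL1 hκ2
  · exact ok_aux2 hL1 hα hAu
  · exact ok_aux2 hL1 hκ hAu
  · show 5 * A * B.u1 * (B.u2 / (20 * A)) / r ^ 2 * max 1 ((B.u2 / (20 * A)) ^ 2 / H) ≤
      A ^ 7 * (B.u1 * B.u2 / r ^ 2 * max 1 (B.u2 ^ 2 / H))
    have e : 5 * A * B.u1 * (B.u2 / (20 * A)) = B.u1 * B.u2 / 4 := by field_simp; ring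
    rw [e]
    have h9 : B.u1 * B.u2 / 4 / r ^ 2 * max 1 ((B.u2 / (20 * A)) ^ 2 / H) ≤ B.u1 * B.u2 / r ^ 2 * max 1 (B.u2 ^ 2 / H) := by
      refine mul_le_mul ?_ (max_le_max le_rfl ?_) (by positivity) (by positivity)
      · apply div_le_div_of_nonneg_right _ (by positivity)
        have : 0 ≤ B.u1 * B.u2 := by positivity
        linarith
      · exact div_le_div_of_nonneg_right (pow_le_pow_left₀ (by positivity) h20 2) hH.le
    refine h9.trans ?_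
    have h10 : (1 : ℝ) ≤ A ^ 7 := one_le_pow₀ hA
    have h11 : 0 ≤ B.u1 * B.u2 / r ^ 2 * max 1 (B.u2 ^ 2 / H) := by positivity
    exact le_mul_of_one_le_left h11 h10
  · intro l hl c1 c2 c3
    obtain ⟨-, -, -, g0, g1⟩ := (bin_iff B H l).1 hl
    refine ⟨c1, c2, c3, ?_, ?_⟩
    · have e : fn θ' (l.y - l'.y) + B.κ / L * (l.z + ∑ k, l.y k * (l.s k - l'.s k) - l'.z) -
          B.α / L * ∑ k, (l.y k - l'.y k) ^ 2 = (B.g0 l.y l.s l.z - B.g0 l'.y l'.s l'.z) / L := by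
        rw [B.g0_rec l'.y l'.s l.y l.s l'.z l.z, eq_div_iff hL.ne']
        simp only [Fin.sum_univ_two, n0, n1, fn, Pi.sub_apply]
        field_simp
        ring
      show |fn θ' (l.y - l'.y) + B.κ / L * (l.z + ∑ k, l.y k * (l.s k - l'.s k) - l'.z) -
          B.α / L * ∑ k, (l.y k - l'.y k) ^ 2| ≤ 5 * A * B.u1
      rw [e]
      exact g_aux hL1 g0 pg0 hAu
    · have e : fn θ' (l.s - l'.s) + B.κ / L * (∑ k, (l.s k - l'.s k) ^ 2) / 2 +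
          2 * (B.α / L) * (l.z + ∑ k, l'.y k * (l.s k - l'.s k) - l'.z) = (B.g1 l.y l.s l.z - B.g1 l'.y l'.s l'.z) / L := by
        rw [B.g1_rec l'.y l'.s l.y l.s l'.z l.z, eq_div_iff hL.ne']
        simp only [Fin.sum_univ_two, n0, n1, fn, Pi.sub_apply]
        field_simp
        ring
      show |fn θ' (l.s - l'.s) + B.κ / L * (∑ k, (l.s k - l'.s k) ^ 2) / 2 +
          2 * (B.α / L) * (l.z + ∑ k, l'.y k * (l.s k - l'.s k) - l'.z)| ≤ 5 * A * B.u1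
      rw [e]
      exact g_aux hL1 g1 pg1 hAu

/-- ball -/
theorem cut_ball {A : ℝ} (hA : 1 ≤ A) {B : Cbx} {r H : ℝ} (hr : 0 < r) (hr1 : r ≤ 1) (hH : 0 < H) (hB : Bok A B r)
    (l' : Ry) (hcase : B.u2 / (20 * A) < 5 * A * B.u1) :
    ∃ B' : Cbx, B'.ok (1 / 8) r H ∧ B'.vol r H ≤ A ^ 7 * B.vol r H ∧ ∀ l : Ry,
      (∀ k, |l.y k - l'.y k| ≤ B.u2 / (20 * A)) → (∀ k, |l.s k - l'.s k| ≤ B.u2 / (20 * A)) →
      |l.z + ∑ k, l.y k * (l.s k - l'.s k) - l'.z| ≤ max ((B.u2 / (20 * A)) ^ 2) H → B'.In H l.y l.s l.z := by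
  have hu2 := u2_pos (by linarith) hB
  obtain ⟨hu1, hr', h12, hu2A, hα2, hκ2⟩ := hB
  have hA0 : 0 < A := by linarith
  have hthick : B.u2 < 100 * A ^ 2 * B.u1 := by
    rw [div_lt_iff₀ (by positivity)] at hcase
    linarith
  obtain ⟨u, hu⟩ : ∃ u, u = max (B.u2 / (20 * A)) r := ⟨_, rfl⟩
  have hu0 : 0 < u := by rw [hu]; exact lt_max_of_lt_right hr
  have hrA : r ≤ A ^ 2 * B.u2 := by
    calc r ≤ A * B.u1 := hr'
      _ ≤ A * (A * B.u2) := mul_le_mul_of_nonneg_left h12 hA0.le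
      _ = A ^ 2 * B.u2 := by ring
  have hA2 : (1 : ℝ) ≤ A ^ 2 := one_le_pow₀ hA
  have h20 : B.u2 / (20 * A) ≤ B.u2 := div_le_self hu2.le (by linarith)
  have huB : u ≤ A ^ 2 * B.u2 := by
    rw [hu]
    exact max_le (h20.trans (le_mul_of_one_le_left hu2.le hA2)) hrA
  have hu1' : u ≤ 1 := by
    rw [hu]
    refine max_le ?_ hr1
    rw [div_le_one (by positivity)]
    linarith
  have huu : u ^ 2 ≤ A ^ 3 * (B.u1 * B.u2) := by
    rcases le_total (B.u2 / (20 * A)) r with h | h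
    · rw [hu, max_eq_right h]
      calc r ^ 2 = r * r := by ring
        _ ≤ (A * B.u1) * (A ^ 2 * B.u2) := mul_le_mul hr' hrA hr.le (by positivity)
        _ = A ^ 3 * (B.u1 * B.u2) := by ring
    · rw [hu, max_eq_left h]
      have e : (B.u2 / (20 * A)) ^ 2 = B.u2 * B.u2 / (400 * A ^ 2) := by field_simp; norm_num
      rw [e, div_le_iff₀ (by positivity)]
      have h3 : (1 : ℝ) ≤ A ^ 3 := one_le_pow₀ hA
      have h4 : 0 ≤ A ^ 2 * (B.u1 * B.u2) := by positivity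
      calc B.u2 * B.u2 ≤ (100 * A ^ 2 * B.u1) * B.u2 := mul_le_mul_of_nonneg_right hthick.le hu2.le
        _ = 100 * (A ^ 2 * (B.u1 * B.u2)) := by ring
        _ ≤ 400 * (A ^ 2 * (B.u1 * B.u2)) := by linarith
        _ = 1 * (400 * (A ^ 2 * (B.u1 * B.u2))) := (one_mul _).symm
        _ ≤ A ^ 3 * (400 * (A ^ 2 * (B.u1 * B.u2))) := mul_le_mul_of_nonneg_right h3 (by positivity)
        _ = A ^ 3 * (B.u1 * B.u2) * (400 * A ^ 2) := by ring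
  have hA4 : (1 : ℝ) ≤ A ^ 4 := one_le_pow₀ hA
  refine ⟨⟨0, u, u, 0, 0, l'.y, l'.s, l'.z⟩, ⟨by rw [hu]; exact le_max_right _ _, le_rfl, hu1', ?_, ?_, ?_, ?_⟩, ?_, ?_⟩
  · show |(0 : ℝ)| * u ≤ 1 / 8
    rw [abs_zero, zero_mul]; norm_num
  · show |(0 : ℝ)| * u ≤ 1 / 8
    rw [abs_zero, zero_mul]; norm_num
  · show |(0 : ℝ)| * H ≤ u
    rw [abs_zero, zero_mul]; exact hu0.le
  · show |(0 : ℝ)| * H ≤ u
    rw [abs_zero, zero_mul]; exact hu0.le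
  · show u * u / r ^ 2 * max 1 (u ^ 2 / H) ≤ A ^ 7 * (B.u1 * B.u2 / r ^ 2 * max 1 (B.u2 ^ 2 / H))
    have h1 : u * u / r ^ 2 ≤ A ^ 3 * (B.u1 * B.u2 / r ^ 2) := by
      rw [← mul_div_assoc]
      apply div_le_div_of_nonneg_right _ (by positivity)
      rw [← pow_two]; exact huu
    have h2 : max 1 (u ^ 2 / H) ≤ A ^ 4 * max 1 (B.u2 ^ 2 / H) := by
      refine max_le ?_ ?_
      · calc (1 : ℝ) ≤ A ^ 4 * 1 := by linarith
          _ ≤ A ^ 4 * max 1 (B.u2 ^ 2 / H) := mul_le_mul_of_nonneg_left (le_max_left _ _) (by positivity)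
      · calc u ^ 2 / H ≤ (A ^ 2 * B.u2) ^ 2 / H := div_le_div_of_nonneg_right (pow_le_pow_left₀ hu0.le huB 2) hH.le
          _ = A ^ 4 * (B.u2 ^ 2 / H) := by ring
          _ ≤ A ^ 4 * max 1 (B.u2 ^ 2 / H) := mul_le_mul_of_nonneg_left (le_max_right _ _) (by positivity)
    calc u * u / r ^ 2 * max 1 (u ^ 2 / H) ≤ (A ^ 3 * (B.u1 * B.u2 / r ^ 2)) * (A ^ 4 * max 1 (B.u2 ^ 2 / H)) :=
          mul_le_mul h1 h2 (by positivity) (by positivity)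
      _ = A ^ 7 * (B.u1 * B.u2 / r ^ 2 * max 1 (B.u2 ^ 2 / H)) := by ring
  · intro l c1 c2 c3
    have hqu : B.u2 / (20 * A) ≤ u := by rw [hu]; exact le_max_left _ _
    refine ⟨fun k => (c1 k).trans hqu, fun k => (c2 k).trans hqu, ?_, ?_, ?_⟩
    · refine c3.trans (max_le_max ?_ le_rfl)
      exact pow_le_pow_left₀ (by positivity) hqu 2
    · show |fn 0 (l.y - l'.y) + 0 * (l.z + ∑ k, l.y k * (l.s k - l'.s k) - l'.z) - 0 * ∑ k, (l.y k - l'.y k) ^ 2| ≤ u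
      have e : fn 0 (l.y - l'.y) + 0 * (l.z + ∑ k, l.y k * (l.s k - l'.s k) - l'.z) -
          0 * ∑ k, (l.y k - l'.y k) ^ 2 = l.y 1 - l'.y 1 := by
        simp [fn]
      rw [e]
      exact (c1 1).trans hqu
    · show |fn 0 (l.s - l'.s) + 0 * (∑ k, (l.s k - l'.s k) ^ 2) / 2 +
          2 * 0 * (l.z + ∑ k, l'.y k * (l.s k - l'.s k) - l'.z)| ≤ u
      have e : fn 0 (l.s - l'.s) + 0 * (∑ k, (l.s k - l'.s k) ^ 2) / 2 +
          2 * 0 * (l.z + ∑ k, l'.y k * (l.s k - l'.s k) - l'.z) = l.s 1 - l'.s 1 := by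
        simp [fn]
      rw [e]
      exact (c2 1).trans hqu

/-- the rays of a cell of the grid of a box of class `A` are in one box of the strict class -/
theorem cutA {A : ℝ} (hA : 1 ≤ A) {B : Cbx} {r H : ℝ} (hr : 0 < r) (hr1 : r ≤ 1) (hH : 0 < H) (hB : Bok A B r)
    (hκ : |B.κ| * H ≤ A * B.u1) (hα : |B.α| * H ≤ A * B.u1) {D : ℕ} (hD : 1200 * A ^ 4 ≤ D) {l' : Ry} (hin : Bin A B H l') :
    ∃ B' : Cbx, B'.ok (1 / 8) r H ∧ B'.vol r H ≤ A ^ 7 * B.vol r H ∧ ∀ l : Ry, Bin A B H l →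
      keyA A D B H l = keyA A D B H l' → B'.In H l.y l.s l.z := by
  have hu2 := u2_pos (by linarith) hB
  by_cases hcase : 5 * A * B.u1 ≤ B.u2 / (20 * A)
  · obtain ⟨B', h1, h2, h3⟩ := cut_thin hA hr hH hB hκ hα hin hcase
    refine ⟨B', h1, h2, fun l hl hk => ?_⟩
    obtain ⟨c1, c2, c3⟩ := key_dist hA hH hu2 hD hin hk
    exact h3 l hl c1 c2 c3
  · obtain ⟨B', h1, h2, h3⟩ := cut_ball hA hr hr1 hH hB l' (not_le.1 hcase)
    refine ⟨B', h1, h2, fun l _ hk => ?_⟩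
    obtain ⟨c1, c2, c3⟩ := key_dist hA hH hu2 hD hin hk
    exact h3 l c1 c2 c3

/-- **CONST** -/
theorem const (A : ℝ) (hA : 1 ≤ A) : ∃ (M : ℕ) (C : ℝ), 1 ≤ M ∧ 1 ≤ C ∧ ∀ r H : ℝ, 0 < r → r ≤ 1 → 0 < H →
    ∃ (key : Cbx → Ry → Fin M) (f : Cbx → Fin M → Cbx), ∀ (B : Cbx) (l : Ry), Bok A B r → |B.κ| * H ≤ A * B.u1 →
      |B.α| * H ≤ A * B.u1 → Bin A B H l →
        (f B (key B l)).ok (1 / 8) r H ∧ (f B (key B l)).In H l.y l.s l.z ∧ (f B (key B l)).vol r H ≤ C * B.vol r H := by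
  classical
  obtain ⟨D, hD⟩ := exists_nat_ge (1200 * A ^ 4)
  have hne : (keysA D).Nonempty := by
    refine ⟨(0, 0, 0), ?_⟩
    unfold keysA
    simp
  have hM : 1 ≤ (keysA D).card := hne.card_pos
  refine ⟨(keysA D).card, A ^ 7, hM, one_le_pow₀ hA, fun r H hr hr1 hH => ?_⟩
  let e := (keysA D).equivFin
  refine ⟨fun B l => if h : keyA A D B H l ∈ keysA D then e ⟨_, h⟩ else ⟨0, hM⟩,
    fun B k => if h : Bok A B r ∧ |B.κ| * H ≤ A * B.u1 ∧ |B.α| * H ≤ A * B.u1 ∧ ∃ l' : Ry, Bin A B H l' ∧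
        keyA A D B H l' = (e.symm k).1 then
      (cutA hA hr hr1 hH h.1 h.2.1 h.2.2.1 hD h.2.2.2.choose_spec.1).choose else B, fun B l hB hκ hα hin => ?_⟩
  have hu2 : 0 < B.u2 := by
    obtain ⟨b0, b1, b2, -⟩ := hB
    by_contra hcon
    push Not at hcon
    nlinarith
  have hk := keyA_mem (D := D) (by linarith) hu2 hin
  have hex : Bok A B r ∧ |B.κ| * H ≤ A * B.u1 ∧ |B.α| * H ≤ A * B.u1 ∧ ∃ l' : Ry, Bin A B H l' ∧
      keyA A D B H l' = (e.symm (e ⟨_, hk⟩)).1 := ⟨hB, hκ, hα, l, hin, by rw [Equiv.symm_apply_apply]⟩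
  simp only [dif_pos hk, dif_pos hex]
  have hs := (cutA hA hr hr1 hH hex.1 hex.2.1 hex.2.2.1 hD hex.2.2.2.choose_spec.1).choose_spec
  refine ⟨hs.1, hs.2.2 l hin ?_, hs.2.1⟩
  rw [hex.2.2.2.choose_spec.2, Equiv.symm_apply_apply]

/-- whole planks, thin case -/
theorem whole {A : ℝ} (hA : 1 ≤ A) {B : Cbx} {r H : ℝ} (hr : 0 < r) (hB : Bok A B r) (hH : H ≤ r ^ 2) :
    |B.κ| * H ≤ A ^ 4 * B.u1 ∧ |B.α| * H ≤ A ^ 4 * B.u1 := by
  obtain ⟨hu1, hr', h12, hu2A, hα2, hκ2⟩ := hB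
  have hA0 : 0 < A := by linarith
  have hu2 : 0 < B.u2 := by
    by_contra hcon
    push Not at hcon
    nlinarith
  have h1 : H ≤ A ^ 3 * B.u1 * B.u2 := by
    have h2 : r ≤ A ^ 2 * B.u2 := by nlinarith
    calc H ≤ r ^ 2 := hH
      _ = r * r := by ring
      _ ≤ (A * B.u1) * (A ^ 2 * B.u2) := mul_le_mul hr' h2 hr.le (by positivity)
      _ = A ^ 3 * B.u1 * B.u2 := by ring
  constructor
  · calc |B.κ| * H ≤ |B.κ| * (A ^ 3 * B.u1 * B.u2) := mul_le_mul_of_nonneg_left h1 (abs_nonneg _)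
      _ = (|B.κ| * B.u2) * (A ^ 3 * B.u1) := by ring
      _ ≤ A * (A ^ 3 * B.u1) := mul_le_mul_of_nonneg_right hκ2 (by positivity)
      _ = A ^ 4 * B.u1 := by ring
  · calc |B.α| * H ≤ |B.α| * (A ^ 3 * B.u1 * B.u2) := mul_le_mul_of_nonneg_left h1 (abs_nonneg _)
      _ = (|B.α| * B.u2) * (A ^ 3 * B.u1) := by ring
      _ ≤ A * (A ^ 3 * B.u1) := mul_le_mul_of_nonneg_right hα2 (by positivity)
      _ = A ^ 4 * B.u1 := by ring

/-- **CONST** for thin planks (`H ≤ r²`) -/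
theorem const_thin (A : ℝ) (hA : 1 ≤ A) : ∃ (M : ℕ) (C : ℝ), 1 ≤ M ∧ 1 ≤ C ∧ ∀ r H : ℝ, 0 < r → r ≤ 1 → 0 < H → H ≤ r ^ 2 →
    ∃ (key : Cbx → Ry → Fin M) (f : Cbx → Fin M → Cbx), ∀ (B : Cbx) (l : Ry), Bok A B r → Bin A B H l →
        (f B (key B l)).ok (1 / 8) r H ∧ (f B (key B l)).In H l.y l.s l.z ∧ (f B (key B l)).vol r H ≤ C * B.vol r H := by
  obtain ⟨M, C, hM, hC, h⟩ := const (A ^ 4) (one_le_pow₀ hA)
  refine ⟨M, C, hM, hC, fun r H hr hr1 hH hHr => ?_⟩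
  obtain ⟨key, f, hf⟩ := h r H hr hr1 hH
  refine ⟨key, f, fun B l hB hin => ?_⟩
  have hA4 : A ≤ A ^ 4 := by
    calc A = A ^ 1 := (pow_one A).symm
      _ ≤ A ^ 4 := pow_le_pow_right₀ hA (by norm_num)
  have hu2 : 0 < B.u2 := by
    obtain ⟨b0, b1, b2, -⟩ := hB
    by_contra hcon
    push Not at hcon
    nlinarith
  obtain ⟨w1, w2⟩ := whole hA hr hB hHr
  exact hf B l (hB.mono (by linarith) hA4) w1 w2 (hin.mono hB.1.le hu2.le hA4)

end Vale.Agent.P106.K
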